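import Mathlib

/-!
Kurosh's problem for division rings over centres whose finite extensions have automorphisms.
-/

open Polynomial

namespace Vale.Agent.Results.P199.CentreGalois

variable {F D : Type*} [Field F] [DivisionRing D] [Algebra F D]

/-- Sandwiches with independent right factors are independent. -/
theorem sandwich [Algebra.IsCentral F D] {ι : Type*} [Fintype ι] (v : ι → D)
    (hv : LinearIndependent F v) (u : ι → D) (h : ∀ z, ∑ i, u i * z * v i = 0) : u = 0 := by
  classical
  suffices ∀ (s : Finset ι) (u : ι → D), (∀ i ∉ s, u i = 0) →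
      (∀ z, ∑ i, u i * z * v i = 0) → u = 0 from this Finset.univ u (by simp) h
  intro s
  induction s using Finset.induction_on with
  | empty => intro u hu _; funext i; exact hu i (by simp)
  | insert i₀ s hi₀ ih =>
    intro u hu h
    by_cases h0 : u i₀ = 0
    · refine ih u (fun i hi => ?_) h
      by_cases e : i = i₀
      · subst e; exact h0
      · exact hu i (by simp [e, hi])
    set w : ι → D := fun i => (u i₀)⁻¹ * u i with hw
    have hwsum : ∀ z, ∑ i, w i * z * v i = 0 := fun z => by
      have := h z
      simp only [mul_assoc] at this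
      simp [hw, mul_assoc, ← Finset.mul_sum, this]
    have hc : ∀ y i, y * w i - w i * y = 0 := fun y i => by
      refine congrFun (ih (fun i => y * w i - w i * y) (fun i hi => ?_) fun z => ?_) i
      · by_cases e : i = i₀
        · subst e; simp [hw, h0]
        · simp [hw, hu i (by simp [e, hi])]
      · have e1 := hwsum z
        have e2 := hwsum (y * z)
        simp only [← mul_assoc] at e2
        simp [sub_mul, Finset.sum_sub_distrib, mul_assoc y, ← Finset.mul_sum, e1, e2]
    have hr : ∀ i, ∃ c : F, algebraMap F D c = w i := fun i => by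
      have : w i ∈ Subalgebra.center F D :=
        Subalgebra.mem_center_iff.mpr fun y => sub_eq_zero.mp (hc y i)
      exact Algebra.mem_bot.mp (Algebra.IsCentral.out this)
    choose c hc' using hr
    have hzero : ∑ i, c i • v i = 0 := by simpa [Algebra.smul_def, hc'] using hwsum 1
    have := hc' i₀
    rw [Fintype.linearIndependent_iff.mp hv c hzero i₀, map_zero] at this
    simp [hw, h0] at this

/-- Dickson: roots of one minimal polynomial are conjugate. -/
theorem conjugate [Algebra.IsCentral F D] [Algebra.IsAlgebraic F D] (a b : D)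
    (hb : aeval b (minpoly F a) = 0) : ∃ x : D, x ≠ 0 ∧ x * a = b * x := by
  have ha : IsIntegral F a := (Algebra.IsAlgebraic.isAlgebraic a).isIntegral
  set f := minpoly F a with hf
  set n := f.natDegree with hn
  have hnpos : 0 < n := minpoly.natDegree_pos ha
  let q : ℕ → F[X] := fun k => divX^[k] f
  have hq : ∀ k, q (k + 1) = (q k).divX := fun k => Function.iterate_succ_apply' _ _ _
  have hcoeff : ∀ k j, (q k).coeff j = f.coeff (j + k) := by
    intro k
    induction k with
    | zero => simp [q]
    | succ k ih => intro j; rw [hq, coeff_divX, ih]; congr 1; omega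
  let h : ℕ → D := fun k => aeval b (q k)
  have hrec : ∀ k, h k = b * h (k + 1) + algebraMap F D (f.coeff k) := by
    intro k
    have := congrArg (aeval b) (X_mul_divX_add (q k))
    simp only [map_add, map_mul, aeval_X, aeval_C, hcoeff, zero_add, ← hq] at this
    exact this.symm
  have hlast : h (n + 1) = 0 := by
    have : q (n + 1) = 0 := Polynomial.ext fun j => by
      rw [hcoeff, coeff_zero]; exact coeff_eq_zero_of_natDegree_lt (by omega)
    simp [h, this]
  have hn1 : h n = 1 := by
    rw [hrec, hlast, mul_zero, zero_add, hn, (minpoly.monic ha).coeff_natDegree, map_one]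
  let Φ : D → D := fun z => ∑ k ∈ Finset.range n, h (k + 1) * z * a ^ k
  have hΦ : ∀ z, b * Φ z = Φ z * a := by
    intro z
    have key : ∀ N, b * (∑ k ∈ Finset.range N, h (k + 1) * z * a ^ k)
        - (∑ k ∈ Finset.range N, h (k + 1) * z * a ^ k) * a
        = h 0 * z - h N * z * a ^ N - z * ∑ k ∈ Finset.range N, f.coeff k • a ^ k := by
      intro N
      induction N with
      | zero => simp
      | succ N ih =>
        rw [Finset.sum_range_succ, Finset.sum_range_succ, mul_add, add_mul, mul_add,
          add_sub_add_comm, ih, hrec N]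
        simp only [Algebra.smul_def, pow_succ, mul_assoc, add_mul,
          (Algebra.commutes (f.coeff N) z)]
        abel
    have := key (n + 1)
    rw [Finset.sum_range_succ (fun k => h (k + 1) * z * a ^ k), hlast] at this
    simp only [zero_mul, add_zero, sub_zero] at this
    rw [← aeval_eq_sum_range' (Nat.lt_succ_self n) a, hf, minpoly.aeval, mul_zero, sub_zero,
      show h 0 = 0 from hb, zero_mul, sub_eq_zero] at this
    exact this
  by_cases hall : ∀ z, Φ z = 0
  · exfalso
    have := sandwich (fun k : Fin n => a ^ (k : ℕ)) (linearIndependent_pow a)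
      (fun k => h (k + 1)) fun z => by
        rw [Fin.sum_univ_eq_sum_range (fun k => h (k + 1) * z * a ^ k)]; exact hall z
    have := congrFun this ⟨n - 1, by omega⟩
    simp [show n - 1 + 1 = n by omega, hn1] at this
  · push Not at hall
    obtain ⟨z, hz⟩ := hall
    exact ⟨Φ z, hz, (hΦ z).symm⟩

/-- An element with a second conjugate in its own field lies in a finite noncommutative
subalgebra. -/
theorem finite_noncomm [Algebra.IsCentral F D] [Algebra.IsAlgebraic F D] (a b : D)
    (hmem : b ∈ Algebra.adjoin F {a}) (hne : b ≠ a) (hb : aeval b (minpoly F a) = 0) :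
    ∃ S : Subalgebra F D, FiniteDimensional F S ∧ a ∈ S ∧ ∃ x y, x ∈ S ∧ y ∈ S ∧ x * y ≠ y * x := by
  obtain ⟨x, hx, hxa⟩ := conjugate a b hb
  set A := Subalgebra.toSubmodule (Algebra.adjoin F {a}) with hA
  set X' := Subalgebra.toSubmodule (Algebra.adjoin F {x}) with hX
  have hmove : ∀ u ∈ Algebra.adjoin F {a}, ∃ u' ∈ Algebra.adjoin F {a}, x * u = u' * x := by
    intro u hu
    induction hu using Algebra.adjoin_induction with
    | mem u hu => rw [Set.mem_singleton_iff.mp hu]; exact ⟨b, hmem, hxa⟩
    | algebraMap r => exact ⟨_, Subalgebra.algebraMap_mem _ r, (Algebra.commutes r x).symm⟩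
    | add u v _ _ hu hv =>
      obtain ⟨u', hu', eu⟩ := hu
      obtain ⟨v', hv', ev⟩ := hv
      exact ⟨_, add_mem hu' hv', by rw [mul_add, eu, ev, add_mul]⟩
    | mul u v _ _ hu hv =>
      obtain ⟨u', hu', eu⟩ := hu
      obtain ⟨v', hv', ev⟩ := hv
      exact ⟨_, mul_mem hu' hv', by rw [← mul_assoc, eu, mul_assoc, ev, mul_assoc]⟩
  have hXA : X' * A ≤ A * X' := by
    refine Submodule.mul_le.mpr fun m hm u hu => ?_
    revert u
    change m ∈ Algebra.adjoin F {x} at hm
    induction hm using Algebra.adjoin_induction with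
    | mem m hm =>
      intro u hu
      obtain ⟨u', hu', e⟩ := hmove u hu
      rw [Set.mem_singleton_iff.mp hm, e]
      exact Submodule.mul_mem_mul hu' (Algebra.self_mem_adjoin_singleton F x)
    | algebraMap r =>
      intro u hu
      rw [Algebra.commutes]
      exact Submodule.mul_mem_mul hu (Subalgebra.algebraMap_mem _ r)
    | add m m' _ _ h h' => intro u hu; rw [add_mul]; exact add_mem (h u hu) (h' u hu)
    | mul m m' _ hm' h h' =>
      intro u hu
      rw [mul_assoc]
      refine Submodule.mul_induction_on (h' u hu) (fun u' hu' m'' hm'' => ?_) fun p r hp hr => ?_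
      · rw [← mul_assoc]
        have h1 := Submodule.mul_mem_mul (h u' hu') (show m'' ∈ X' from hm'')
        rw [mul_assoc A X' X', hX, (Subalgebra.isIdempotentElem_toSubmodule _).eq, ← hX] at h1
        exact h1
      · rw [mul_add]; exact add_mem hp hr
  have h1 : (1 : D) ∈ A * X' := by
    simpa using Submodule.mul_mem_mul (M := A) (N := X') (one_mem (Algebra.adjoin F {a}))
      (one_mem (Algebra.adjoin F {x}))
  have hmul : A * X' * (A * X') ≤ A * X' := by
    calc A * X' * (A * X') = A * (X' * A) * X' := by simp only [mul_assoc]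
      _ ≤ A * (A * X') * X' := mul_le_mul' (mul_le_mul' le_rfl hXA) le_rfl
      _ = (A * A) * (X' * X') := by simp only [mul_assoc]
      _ = A * X' := by rw [hA, hX, (Subalgebra.isIdempotentElem_toSubmodule _).eq,
          (Subalgebra.isIdempotentElem_toSubmodule _).eq]
  let S := (A * X').toSubalgebra h1 fun p r hp hr => hmul (Submodule.mul_mem_mul hp hr)
  have haS : a ∈ S := by
    simpa [S] using Submodule.mul_mem_mul (M := A) (N := X')
      (Algebra.self_mem_adjoin_singleton F a) (one_mem (Algebra.adjoin F {x}))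
  have hxS : x ∈ S := by
    simpa [S] using Submodule.mul_mem_mul (M := A) (N := X')
      (one_mem (Algebra.adjoin F {a})) (Algebra.self_mem_adjoin_singleton F x)
  have hfg : (A * X').FG :=
    ((Algebra.IsAlgebraic.isAlgebraic a).isIntegral.fg_adjoin_singleton).mul
      (Algebra.IsAlgebraic.isAlgebraic x).isIntegral.fg_adjoin_singleton
  refine ⟨S, Module.Finite.iff_fg.mpr hfg, haS, x, a, hxS, haS, fun e => ?_⟩
  exact hne (mul_right_cancel₀ hx (hxa.symm.trans e))

universe u v

theorem result :
    (∀ (F : Type u) [Field F] (D : Type v) [DivisionRing D] [Algebra F D]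
      [Algebra.IsCentral F D] [Algebra.IsAlgebraic F D],
      (∀ a b : D, b ∈ Algebra.adjoin F {a} → b ≠ a → aeval b (minpoly F a) = 0 →
        ∃ S : Subalgebra F D, FiniteDimensional F S ∧ a ∈ S ∧
          ∃ x y, x ∈ S ∧ y ∈ S ∧ x * y ≠ y * x) ∧
      ((∀ f : F[X], Irreducible f → f.Separable → 2 ≤ f.natDegree →
          ∃ c d : AdjoinRoot f,
            d ∈ Algebra.adjoin F {c} ∧ d ≠ c ∧ aeval d (minpoly F c) = 0) →
        ((∃ x y : D, x * y ≠ y * x) →
          ∃ S : Subalgebra F D, FiniteDimensional F S ∧
            ∃ x y, x ∈ S ∧ y ∈ S ∧ x * y ≠ y * x) ∧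
        ((∀ (E : Type v) [DivisionRing E] [Algebra F E],
            FiniteDimensional F E → ∀ x y : E, x * y = y * x) →
          ∀ x : D, ∃ c : F, algebraMap F D c = x))) := by
  intro F _ D _ _ _ _
  refine ⟨fun a b h1 h2 h3 => finite_noncomm a b h1 h2 h3, fun hF => ?_⟩
  have main : (⊥ : Subalgebra F D) ≠ ⊤ →
      ∃ S : Subalgebra F D, FiniteDimensional F S ∧ ∃ x y, x ∈ S ∧ y ∈ S ∧ x * y ≠ y * x := by
    intro hbot
    obtain ⟨a, ha, hsep⟩ := JacobsonNoether.exists_separable_and_not_isCentral' hbot
    have hint : IsIntegral F a := (Algebra.IsAlgebraic.isAlgebraic a).isIntegral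
    have hdeg : 2 ≤ (minpoly F a).natDegree :=
      (minpoly.two_le_natDegree_iff hint).mpr fun h => ha (Algebra.mem_bot.mpr h)
    have hirr := minpoly.irreducible hint
    obtain ⟨c, d, hd, hne, hroot⟩ := hF _ hirr hsep hdeg
    have : Fact (Irreducible (minpoly F a)) := ⟨hirr⟩
    let φ : AdjoinRoot (minpoly F a) →ₐ[F] D :=
      Ideal.Quotient.liftₐ _ (aeval a) fun p hp => by
        obtain ⟨q, rfl⟩ := Ideal.mem_span_singleton.mp hp
        simp
    have hφ : Function.Injective φ := φ.toRingHom.injective
    obtain ⟨S, hS, -, hxy⟩ := finite_noncomm (φ c) (φ d)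
      (by
        have h : φ d ∈ (Algebra.adjoin F {c}).map φ := ⟨d, hd, rfl⟩
        rwa [AlgHom.map_adjoin, Set.image_singleton] at h)
      (fun e => hne (hφ e))
      (by rw [minpoly.algHom_eq φ hφ, aeval_algHom_apply, hroot, map_zero])
    exact ⟨S, hS, hxy⟩
  refine ⟨fun ⟨x, y, hxy⟩ => main fun e => hxy ?_, fun hE x => ?_⟩
  · have hx : x ∈ (⊥ : Subalgebra F D) := e ▸ trivial
    obtain ⟨c, rfl⟩ := Algebra.mem_bot.mp hx
    exact Algebra.commutes c y
  · by_contra hx
    obtain ⟨S, hS, p, r, hp, hr, hpr⟩ := main fun e => hx (Algebra.mem_bot.mp (e ▸ trivial))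
    let _ : DivisionRing S := divisionRingOfFiniteDimensional F S
    exact hpr (congrArg Subtype.val (hE S hS ⟨p, hp⟩ ⟨r, hr⟩))

end Vale.Agent.Results.P199.CentreGalois
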