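import Vale.Agent.P199.Norm.Amitsur
import Vale.Agent.P199.Norm.Bounded

/-!
Kurosh's problem over centres having a finite extension with surjective norms.
-/

namespace Vale.Agent.Results.P199.CentreNorm

universe u

theorem result :
    ∀ (F D L : Type u) [Field F] [DivisionRing D] [Algebra F D] [Algebra.IsCentral F D]
      [Algebra.IsAlgebraic F D] [Field L] [Algebra F L] [FiniteDimensional F L],
      (Uncountable F ∨ ∀ (m : ℕ) (T : Module.End D (Fin m → D)), IsAlgebraic F T) →
      (∀ (E : Type u) [Field E] [Algebra L E], FiniteDimensional L E →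
        ∀ (τ : E ≃ₐ[L] E) (p : ℕ), p.Prime → τ ^ p = 1 → τ ≠ 1 → ∀ z, τ z = z →
          ∃ y, ∏ i ∈ Finset.range p, (τ ^ i) y = z) →
      FiniteDimensional F D ∧ Module.finrank F D ≤ Module.finrank F L ^ 2 := by
  intro F D L _ _ _ _ _ _ _ _ hF hN
  have hA : ∀ (m : ℕ) (T : Module.End D (Fin m → D)), IsAlgebraic F T := by
    rcases hF with h | h
    · exact fun m T => Vale.Agent.P199.Norm.isAlgebraic_end_of_uncountable m T
    · exact h
  exact Vale.Agent.P199.Norm.finrank_le_sq _ fun a ha =>
    Vale.Agent.P199.Norm.natDegree_le hN hA a ha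

end Vale.Agent.Results.P199.CentreNorm
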